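import Vale.Agent.H30.NS.Build
import Vale.Agent.H7.NS.CRat
import Vale.Agent.H91.NS.CReal
import Vale.Agent.H97.NS.TM

/-!
TASK ETA for P113: basic facts on the halting weights `etaW`, and their computability.
-/

namespace Vale.Agent.H1

open Vale.Agent.H30

/-- The `T`-th term of the series defining `etaW N`. -/
noncomputable def etaTerm (N T : ℕ) : ℝ := if reach N T then (1 / 2 : ℝ) ^ (T + 1) else 0

theorem etaW_eq (N : ℕ) : etaW N = (1 / 2 : ℝ) ^ N * ∑' T : ℕ, etaTerm N T := rfl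

theorem etaTerm_nonneg (N T : ℕ) : 0 ≤ etaTerm N T := by
  unfold etaTerm
  split_ifs
  · positivity
  · exact le_rfl

theorem etaTerm_le (N T : ℕ) : etaTerm N T ≤ (1 / 2 : ℝ) ^ (T + 1) := by
  unfold etaTerm
  split_ifs
  · exact le_rfl
  · positivity

theorem summable_half_succ (m : ℕ) : Summable (fun T : ℕ => (1 / 2 : ℝ) ^ (T + m)) := by
  have h := summable_geometric_two.mul_right ((1 / 2 : ℝ) ^ m)
  refine h.congr fun T => ?_
  rw [pow_add]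

theorem tsum_half_succ (m : ℕ) : ∑' T : ℕ, (1 / 2 : ℝ) ^ (T + m) = 2 * (1 / 2 : ℝ) ^ m := by
  have h : ∀ T : ℕ, (1 / 2 : ℝ) ^ (T + m) = (1 / 2 : ℝ) ^ T * (1 / 2 : ℝ) ^ m := fun T => pow_add _ _ _
  rw [tsum_congr h, tsum_mul_right, tsum_geometric_two]

theorem summable_etaTerm (N : ℕ) : Summable (etaTerm N) :=
  Summable.of_nonneg_of_le (etaTerm_nonneg N) (etaTerm_le N) (summable_half_succ 1)

theorem summable_etaTerm_shift (N m : ℕ) : Summable (fun T : ℕ => etaTerm N (T + m)) :=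
  Summable.of_nonneg_of_le (fun T => etaTerm_nonneg N (T + m))
    (fun T => etaTerm_le N (T + m)) (by
      have := summable_half_succ (m + 1)
      refine this.congr fun T => ?_
      rw [add_assoc])

theorem tsum_etaTerm_shift_le (N m : ℕ) :
    ∑' T : ℕ, etaTerm N (T + m) ≤ (1 / 2 : ℝ) ^ m := by
  have h1 : ∑' T : ℕ, etaTerm N (T + m) ≤ ∑' T : ℕ, (1 / 2 : ℝ) ^ (T + (m + 1)) :=
    (summable_etaTerm_shift N m).tsum_le_tsum
      (fun T => by rw [← add_assoc]; exact etaTerm_le N (T + m)) (summable_half_succ (m + 1))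
  rw [tsum_half_succ] at h1
  have h2 : 2 * (1 / 2 : ℝ) ^ (m + 1) = (1 / 2 : ℝ) ^ m := by
    rw [pow_succ]; ring
  rw [h2] at h1
  exact h1

theorem tsum_etaTerm_nonneg (N : ℕ) : 0 ≤ ∑' T : ℕ, etaTerm N T :=
  tsum_nonneg (etaTerm_nonneg N)

theorem tsum_etaTerm_le_one (N : ℕ) : ∑' T : ℕ, etaTerm N T ≤ 1 := by
  have h := tsum_etaTerm_shift_le N 0
  simpa using h

theorem etaW_nonneg (N : ℕ) : 0 ≤ etaW N := by
  rw [etaW_eq]
  exact mul_nonneg (by positivity) (tsum_etaTerm_nonneg N)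

theorem etaW_le (N : ℕ) : etaW N ≤ (1 / 2 : ℝ) ^ N := by
  rw [etaW_eq]
  have h := mul_le_mul_of_nonneg_left (tsum_etaTerm_le_one N)
    (show (0 : ℝ) ≤ (1 / 2 : ℝ) ^ N by positivity)
  simpa using h

theorem etaW_pos_iff (N : ℕ) : 0 < etaW N ↔ ∃ T, reach N T = true := by
  rw [etaW_eq]
  constructor
  · intro h
    by_contra hne
    push Not at hne
    have hz : ∀ T : ℕ, etaTerm N T = 0 := by
      intro T
      unfold etaTerm
      rw [if_neg (hne T)]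
    have : ∑' T : ℕ, etaTerm N T = 0 := by
      rw [tsum_congr hz, tsum_zero]
    rw [this, mul_zero] at h
    exact lt_irrefl _ h
  · rintro ⟨T, hT⟩
    have hpos : 0 < etaTerm N T := by
      unfold etaTerm
      rw [if_pos hT]
      positivity
    have hle : etaTerm N T ≤ ∑' T : ℕ, etaTerm N T :=
      (summable_etaTerm N).le_tsum T (fun j _ => etaTerm_nonneg N j)
    exact mul_pos (by positivity) (lt_of_lt_of_le hpos hle)

/-- The rational finite sums approximating `etaW`. -/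
def etaQ (p : ℕ × ℕ) : ℚ :=
  (1 / 2 : ℚ) ^ p.1 *
    ∑ T ∈ Finset.range (p.2 + 1), if reach p.1 T then (1 / 2 : ℚ) ^ (T + 1) else 0

theorem etaQ_crat : CRat etaQ := by
  have hc : Computable (fun q : (ℕ × ℕ) × ℕ => reach q.1.1 q.2) :=
    Vale.Agent.H97.reach_primrec.to_comp.comp (Computable.fst.comp Computable.fst) Computable.snd
  have hpow : CRat (fun q : (ℕ × ℕ) × ℕ => (1 / 2 : ℚ) ^ (q.2 + 1)) :=
    Vale.Agent.H7.CRat.pow (Vale.Agent.H7.CRat.const (1 / 2 : ℚ))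
      (Computable.succ.comp Computable.snd)
  have hterm : CRat (fun q : (ℕ × ℕ) × ℕ =>
      if reach q.1.1 q.2 then (1 / 2 : ℚ) ^ (q.2 + 1) else 0) :=
    Vale.Agent.H7.CRat.ite hc hpow (Vale.Agent.H7.CRat.const 0)
  have hsum : CRat (fun p : ℕ × ℕ =>
      ∑ T ∈ Finset.range (p.2 + 1), if reach p.1 T then (1 / 2 : ℚ) ^ (T + 1) else 0) :=
    Vale.Agent.H7.CRat.sum (r := fun (p : ℕ × ℕ) (T : ℕ) =>
      if reach p.1 T then (1 / 2 : ℚ) ^ (T + 1) else 0) hterm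
      (Computable.succ.comp Computable.snd)
  have hpre : CRat (fun p : ℕ × ℕ => (1 / 2 : ℚ) ^ p.1) :=
    Vale.Agent.H7.CRat.pow (Vale.Agent.H7.CRat.const (1 / 2 : ℚ)) Computable.fst
  exact Vale.Agent.H7.CRat.mul hpre hsum

theorem etaQ_cast (N k : ℕ) :
    ((etaQ (N, k) : ℚ) : ℝ) = (1 / 2 : ℝ) ^ N * ∑ T ∈ Finset.range (k + 1), etaTerm N T := by
  have h1 : etaQ (N, k) = (1 / 2 : ℚ) ^ N *
      ∑ T ∈ Finset.range (k + 1), if reach N T then (1 / 2 : ℚ) ^ (T + 1) else 0 := rfl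
  rw [h1, Rat.cast_mul, Rat.cast_pow, Rat.cast_sum]
  have h2 : ((1 / 2 : ℚ) : ℝ) = (1 / 2 : ℝ) := by norm_num
  rw [h2]
  refine congrArg (fun z : ℝ => (1 / 2 : ℝ) ^ N * z) ?_
  refine Finset.sum_congr rfl fun T _ => ?_
  unfold etaTerm
  by_cases hr : reach N T = true
  · rw [if_pos hr, if_pos hr, Rat.cast_pow, h2]
  · rw [if_neg hr, if_neg hr, Rat.cast_zero]

theorem half_pow_le (k : ℕ) : (1 / 2 : ℝ) ^ (k + 1) ≤ 1 / ((k : ℝ) + 1) := by
  have h1 : ((k : ℝ) + 1) ≤ (2 : ℝ) ^ (k + 1) := by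
    have : k + 1 ≤ 2 ^ (k + 1) := Nat.lt_two_pow_self.le
    exact_mod_cast this
  have h2 : (0 : ℝ) < (k : ℝ) + 1 := by positivity
  rw [one_div_pow]
  exact one_div_le_one_div_of_le h2 h1

theorem etaW_approx (N k : ℕ) :
    |etaW N - ((etaQ (N, k) : ℚ) : ℝ)| ≤ 1 / ((k : ℝ) + 1) := by
  rw [etaW_eq, etaQ_cast]
  have hsplit := (summable_etaTerm N).sum_add_tsum_nat_add (k + 1)
  have hdiff : (1 / 2 : ℝ) ^ N * ∑' T : ℕ, etaTerm N T
      - (1 / 2 : ℝ) ^ N * ∑ T ∈ Finset.range (k + 1), etaTerm N T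
      = (1 / 2 : ℝ) ^ N * ∑' T : ℕ, etaTerm N (T + (k + 1)) := by
    rw [← hsplit]; ring
  rw [hdiff]
  have h0 : 0 ≤ ∑' T : ℕ, etaTerm N (T + (k + 1)) :=
    tsum_nonneg fun T => etaTerm_nonneg N (T + (k + 1))
  have h1 : ∑' T : ℕ, etaTerm N (T + (k + 1)) ≤ (1 / 2 : ℝ) ^ (k + 1) :=
    tsum_etaTerm_shift_le N (k + 1)
  have hN0 : (0 : ℝ) ≤ (1 / 2 : ℝ) ^ N := by positivity
  have hN1 : (1 / 2 : ℝ) ^ N ≤ 1 := pow_le_one₀ (by norm_num) (by norm_num)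
  rw [abs_of_nonneg (mul_nonneg hN0 h0)]
  calc (1 / 2 : ℝ) ^ N * ∑' T : ℕ, etaTerm N (T + (k + 1))
      ≤ 1 * (1 / 2 : ℝ) ^ (k + 1) := mul_le_mul hN1 h1 h0 (by norm_num)
    _ = (1 / 2 : ℝ) ^ (k + 1) := one_mul _
    _ ≤ 1 / ((k : ℝ) + 1) := half_pow_le k

theorem etaW_creal : CReal (fun N : ℕ => etaW N) := by
  have hG : CReal (fun p : ℕ × ℕ => ((etaQ p : ℚ) : ℝ)) :=
    Vale.Agent.H91.CReal.of_rat etaQ_crat
  exact Vale.Agent.H91.CReal.of_limit (G := fun N k => ((etaQ (N, k) : ℚ) : ℝ)) hG etaW_approx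

end Vale.Agent.H1
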